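import Vale.Agent.Lib.P344.Bridge

namespace Vale.Agent.Results.P344.GateBound3n

open Vale.Agent.Lib.P344

/-- Every linear circuit for the unnormalized DFT of order `n ≥ 2` has at least
`3 n - d(n) - 2` gates, `d(n)` the number of divisors of `n`. -/
theorem result : ∀ n : ℕ, 2 ≤ n → 3 * n ≤ L n + (Nat.divisors n).card + 2 :=
  fun _ hn => L_bound hn

end Vale.Agent.Results.P344.GateBound3n
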